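import Vale.Agent.P239.Full.FMain

namespace Vale.Agent.Results.P239.A_grp

open Vale.Agent.P239.St

universe u

theorem result (G : Type u) [Group G] (R : Res4 (MonoidAlgebra ℤ G))
    (h : R.TrivialAction fun g : G => MonoidAlgebra.single g 1) (hR : R.IsPD4) :
    ReducedL2Vanishes (fun g : G => MonoidAlgebra.single g 1) R.d2 R.d1 ∧
      ReducedL2Vanishes (fun g : G => MonoidAlgebra.single g 1) R.d4 R.d3 :=
  ⟨(Vale.Agent.P239.st_full R h hR).2.1, (Vale.Agent.P239.st_full R h hR).2.2.1⟩

end Vale.Agent.Results.P239.A_grp
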