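import Vale.Agent.P239.Bridge

namespace Vale.Agent.Results.P239.B_npc

open Vale.Agent.P239.St

universe u v

theorem result (G : Type u) [Group G] (R : Res4 (MonoidAlgebra ℤ G))
    (h : R.TrivialAction fun g : G => MonoidAlgebra.single g 1) (hR : R.IsPD4) :
    (R.SubquadraticFilling l1 → R.SingerVanishing fun g : G => MonoidAlgebra.single g 1) ∧
    (LinearlyCombable G → R.SingerVanishing fun g : G => MonoidAlgebra.single g 1) ∧
    (∀ (X : Type v) [MetricSpace X] [MulAction G X] [IsIsometricSMul G X],
      IsCAT0 X → ProperCobounded G X →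
        R.SingerVanishing fun g : G => MonoidAlgebra.single g 1) :=
  Vale.Agent.P239.st_main R h hR

end Vale.Agent.Results.P239.B_npc
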